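import Vale.Agent.P064.H825.Defs
import Vale.Agent.P064.H444.Defs

/-!
Almost copies: all but at most `d` edges of a copy of `H`.
-/

namespace Vale.Agent.N064

open SimpleGraph MeasureTheory
open scoped Pointwise

/-- The probability that `G(n,p)` contains all but at most `d` edges of some copy of `H` in the
complete graph on `Fin n`. -/
noncomputable def probAlmost {W : Type*} (n d : ℕ) (H : SimpleGraph W) (p : unitInterval) : ℝ :=
  (binomialRandom (Fin n) p).real
    {G | ∃ K ∈ P064.H825.copies n H, (K.edgeSet \ G.edgeSet).ncard ≤ d}

open Classical in
/-- The probability that the `p`-random subset of `X` contains all but at most `d` points of some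
translate of `H`. -/
noncomputable def probAlmostTranslate {X : Type*} [Fintype X] [DecidableEq X] (G : Type*)
    [Group G] [MulAction G X] (d : ℕ) (H : Finset X) (p : ℝ) : ℝ :=
  ∑ W : Finset X, if ∃ g : G, (g • H \ W).card ≤ d then P064.Act.weight p W else 0

end Vale.Agent.N064
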