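import Vale.Agent.P064.H825.Graph
import Vale.Agent.N064.Defs

/-!
P064 (helper5): the fragment iteration stopped at size `d`, with repeated rounds.
-/

set_option linter.all false

namespace Vale.Agent.N064

open Finset Vale.Agent.P064 Vale.Agent.P064.Multi Vale.Agent.P064.H825
open scoped Pointwise

variable {X : Type*} [Fintype X] [DecidableEq X]

open Classical in
/-- indicator that no member of `H` has at most `d` points outside `W` -/
noncomputable def miss (d : ℕ) (H : Finset (Finset X)) (W : Finset X) : ℝ :=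
  if ∃ S ∈ H, (S \ W).card ≤ d then 0 else 1

theorem miss_nonneg (d : ℕ) (H : Finset (Finset X)) (W : Finset X) : 0 ≤ miss d H W := by
  unfold miss
  split_ifs <;> norm_num

theorem miss_le_one (d : ℕ) (H : Finset (Finset X)) (W : Finset X) : miss d H W ≤ 1 := by
  unfold miss
  split_ifs <;> norm_num

theorem miss_le {d : ℕ} {H H' : Finset (Finset X)} {W W' : Finset X}
    (h : (∃ S ∈ H', (S \ W').card ≤ d) → ∃ S ∈ H, (S \ W).card ≤ d) :
    miss d H W ≤ miss d H' W' := by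
  unfold miss
  split_ifs with a b b
  · exact le_rfl
  · exact zero_le_one
  · exact absurd (h b) a
  · exact le_rfl

theorem miss_union_left (d : ℕ) (H : Finset (Finset X)) (W Z : Finset X) :
    miss d H (W ∪ Z) ≤ miss d H W := by
  refine miss_le ?_
  rintro ⟨S, hS, h⟩
  exact ⟨S, hS, (card_le_card (sdiff_subset_sdiff Subset.rfl subset_union_left)).trans h⟩

theorem miss_union_right (d : ℕ) (H : Finset (Finset X)) (W Z : Finset X) :
    miss d H (W ∪ Z) ≤ miss d H Z := by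
  rw [union_comm]
  exact miss_union_left d H Z W

theorem miss_fr (d s : ℕ) (H : Finset (Finset X)) (W Z : Finset X) :
    miss d H (W ∪ Z) ≤ miss d (fr s H W) Z := by
  refine miss_le ?_
  rintro ⟨T, hT, h⟩
  obtain ⟨S', h1, _, h3⟩ := frs_mem (mem_filter.1 hT).1
  refine ⟨S', h1, le_trans (card_le_card ?_) h⟩
  intro x hx
  rw [mem_sdiff, mem_union, not_or] at hx
  rw [h3, mem_sdiff, mem_sdiff]
  exact ⟨⟨hx.1, hx.2.1⟩, hx.2.2⟩

/-- expected cost of the big fragments in one round -/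
theorem err2 {r : ℝ} (hr0 : 0 ≤ r) (hr : r ≤ 1 / 64) (ℓ : ℕ) :
    ∑ t ∈ Ioc (ℓ / 2) ℓ, (ℓ.choose t : ℝ) * r ^ t ≤ 1 / 8 * (1 / 4) ^ ℓ := by
  have hr1 : r ≤ 1 := by linarith
  set h := ℓ / 2 with hh
  have h2 : ℓ ≤ 2 * h + 1 := by omega
  have h3 : ∑ t ∈ Ioc h ℓ, (ℓ.choose t : ℝ) * r ^ t ≤
      ∑ t ∈ Ioc h ℓ, (ℓ.choose t : ℝ) * r ^ (h + 1) := by
    refine Finset.sum_le_sum fun t ht => ?_
    rw [mem_Ioc] at ht
    exact mul_le_mul_of_nonneg_left (pow_le_pow_of_le_one hr0 hr1 ht.1) (Nat.cast_nonneg _)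
  have h4 : ∑ t ∈ Ioc h ℓ, (ℓ.choose t : ℝ) ≤ 2 ^ ℓ := by
    have h5 : ∑ t ∈ Ioc h ℓ, ℓ.choose t ≤ ∑ t ∈ range (ℓ + 1), ℓ.choose t := by
      refine Finset.sum_le_sum_of_subset fun t ht => ?_
      rw [mem_Ioc] at ht
      exact mem_range.2 (by omega)
    rw [Nat.sum_range_choose] at h5
    exact_mod_cast h5
  have h6 : r ^ (h + 1) ≤ (1 / 64) ^ (h + 1) := pow_le_pow_left₀ hr0 hr _
  have h7 : (1 / 64 : ℝ) ^ (h + 1) ≤ 1 / 8 * (1 / 8) ^ ℓ := by
    calc (1 / 64 : ℝ) ^ (h + 1) = (1 / 8) ^ (2 * h + 1 + 1) := by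
          rw [show 2 * h + 1 + 1 = 2 * (h + 1) by ring, pow_mul]
          norm_num
      _ ≤ (1 / 8) ^ (ℓ + 1) := pow_le_pow_of_le_one (by norm_num) (by norm_num) (by omega)
      _ = 1 / 8 * (1 / 8) ^ ℓ := by rw [pow_succ]; ring
  calc ∑ t ∈ Ioc h ℓ, (ℓ.choose t : ℝ) * r ^ t
      ≤ (∑ t ∈ Ioc h ℓ, (ℓ.choose t : ℝ)) * r ^ (h + 1) := by
        rw [Finset.sum_mul]; exact h3
    _ ≤ 2 ^ ℓ * (1 / 8 * (1 / 8) ^ ℓ) :=
        mul_le_mul h4 (h6.trans h7) (by positivity) (by positivity)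
    _ = 1 / 8 * (2 ^ ℓ * (1 / 8) ^ ℓ) := by ring
    _ = 1 / 8 * (1 / 4) ^ ℓ := by
        rw [← mul_pow]
        norm_num

/-- **the iteration**, with repeated rounds -/
theorem iterB {p w : ℝ} (hp : 0 < p) (hpw : 64 * p ≤ w) (hw1 : w ≤ 1) (d : ℕ) :
    ∀ (N k ℓ : ℕ) (H : Finset (Finset X)), ℓ < (d + 1) * 2 ^ k → (∀ S ∈ H, S.card ≤ ℓ) →
      ∑ j ∈ Ioc d ℓ, (1 / 2 : ℝ) ^ j < cost p H →
      (1 / 8 * (1 / 2 : ℝ) ^ (d + 1)) ^ k * ES (1 - (1 - w) ^ N) univ (miss d H) ≤
        (2 * (1 / 8 * (1 / 2 : ℝ) ^ (d + 1))) ^ N := by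
  have hw0 : 0 < w := by linarith
  have hr0 : 0 ≤ p / w := by positivity
  have hr : p / w ≤ 1 / 64 := by
    rw [div_le_div_iff₀ hw0 (by norm_num)]
    linarith
  set ρ : ℝ := 1 / 8 * (1 / 2 : ℝ) ^ (d + 1) with hρ
  have hρ0 : 0 < ρ := by positivity
  have hρ1 : ρ ≤ 1 := by
    have : (1 / 2 : ℝ) ^ (d + 1) ≤ 1 := pow_le_one₀ (by norm_num) (by norm_num)
    linarith
  have hP0 : ∀ N : ℕ, 0 ≤ 1 - (1 - w) ^ N := fun N => by
    have : (1 - w) ^ N ≤ 1 := pow_le_one₀ (by linarith) (by linarith)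
    linarith
  have hP1 : ∀ N : ℕ, 1 - (1 - w) ^ N ≤ 1 := fun N => by
    have : 0 ≤ (1 - w) ^ N := pow_nonneg (by linarith) N
    linarith
  intro N
  induction N with
  | zero =>
    intro k ℓ H _ _ _
    have h1 : ES (1 - (1 - w) ^ 0) (univ : Finset X) (miss d H) ≤ 1 := by
      have h2 := ES_mono (hP0 0) (hP1 0) (univ : Finset X) (f := miss d H) (g := fun _ => 1)
        fun W _ => miss_le_one d H W
      rwa [ES_const] at h2
    have h2 : 0 ≤ ES (1 - (1 - w) ^ 0) (univ : Finset X) (miss d H) := by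
      have h2 := ES_mono (hP0 0) (hP1 0) (univ : Finset X) (g := miss d H) (f := fun _ => 0)
        fun W _ => miss_nonneg d H W
      rwa [ES_const] at h2
    have h3 : ρ ^ k ≤ 1 := pow_le_one₀ hρ0.le hρ1
    rw [pow_zero (2 * ρ)]
    calc ρ ^ k * ES (1 - (1 - w) ^ 0) (univ : Finset X) (miss d H) ≤ 1 * 1 :=
          mul_le_mul h3 h1 h2 zero_le_one
      _ = 1 := one_mul _
  | succ N ih =>
    intro k ℓ H hk hH hc
    by_cases hℓ : ℓ ≤ d
    · rw [Finset.Ioc_eq_empty (not_lt.2 hℓ), Finset.sum_empty] at hc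
      have hne : H.Nonempty := by
        rw [Finset.nonempty_iff_ne_empty]
        rintro rfl
        have : Cov (∅ : Finset (Finset X)) ∅ := fun S hS => absurd hS (notMem_empty S)
        have h1 : cost p (∅ : Finset (Finset X)) ≤ 0 := by simpa using cost_le (p := p) this
        linarith
      obtain ⟨S, hS⟩ := hne
      have h1 : ES (1 - (1 - w) ^ (N + 1)) (univ : Finset X) (miss d H) = 0 := by
        rw [ES_congr _ _ (g := fun _ => 0), ES_const]
        intro W _
        unfold miss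
        rw [if_pos ⟨S, hS, (card_le_card sdiff_subset).trans ((hH S hS).trans hℓ)⟩]
      rw [h1, mul_zero]
      positivity
    rw [not_le] at hℓ
    obtain ⟨k, rfl⟩ : ∃ k', k = k' + 1 := by
      rcases k with _ | k
      · exfalso
        rw [pow_zero, mul_one] at hk
        omega
      · exact ⟨k, rfl⟩
    have hk' : ℓ / 2 < (d + 1) * 2 ^ k := by
      rw [pow_succ, ← mul_assoc] at hk
      omega
    set big : Finset X → ℝ := fun W => ∑ t ∈ Ioc (ℓ / 2) ℓ,
      (((frs H W).filter fun T => T.card = t).card : ℝ) * p ^ t with hbig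
    have hbig0 : ∀ W, 0 ≤ big W := fun W =>
      Finset.sum_nonneg fun t _ => by positivity
    have hsum : ∑ j ∈ Ioc d (ℓ / 2), (1 / 2 : ℝ) ^ j + (1 / 2) ^ ℓ ≤
        ∑ j ∈ Ioc d ℓ, (1 / 2 : ℝ) ^ j := by
      have h1 : ℓ ∉ Ioc d (ℓ / 2) := by
        rw [mem_Ioc]
        omega
      rw [add_comm, ← Finset.sum_insert h1]
      refine Finset.sum_le_sum_of_subset_of_nonneg ?_ fun _ _ _ => by positivity
      intro j hj
      rw [mem_insert, mem_Ioc] at hj
      rw [mem_Ioc]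
      omega
    have hpos : (0 : ℝ) < (2 * ρ) ^ N := by positivity
    have h2 : ∀ W : Finset X, ρ ^ (k + 1) *
        ES (1 - (1 - w) ^ N) univ (fun Z => miss d H (W ∪ Z)) ≤
        ρ * (2 * ρ) ^ N + (2 ^ ℓ * (2 * ρ) ^ N) * big W := by
      intro W
      by_cases hs : big W ≤ (1 / 2) ^ ℓ
      · have h3 := cost_step hH hp.le (ℓ / 2) W
        have h4 := ih k (ℓ / 2) (fr (ℓ / 2) H W) hk' (fun S hS => (mem_filter.1 hS).2)
          (by
            change cost p H ≤ cost p (fr (ℓ / 2) H W) + big W at h3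
            linarith)
        have h5 : ES (1 - (1 - w) ^ N) univ (fun Z => miss d H (W ∪ Z)) ≤
            ES (1 - (1 - w) ^ N) univ (miss d (fr (ℓ / 2) H W)) :=
          ES_mono (hP0 N) (hP1 N) _ fun Z _ => miss_fr d _ H W Z
        have h6 : 0 ≤ (2 ^ ℓ * (2 * ρ) ^ N) * big W :=
          mul_nonneg (by positivity) (hbig0 W)
        calc ρ ^ (k + 1) * ES (1 - (1 - w) ^ N) univ (fun Z => miss d H (W ∪ Z))
            ≤ ρ ^ (k + 1) * ES (1 - (1 - w) ^ N) univ (miss d (fr (ℓ / 2) H W)) :=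
              mul_le_mul_of_nonneg_left h5 (by positivity)
          _ = ρ * (ρ ^ k * ES (1 - (1 - w) ^ N) univ (miss d (fr (ℓ / 2) H W))) := by ring
          _ ≤ ρ * (2 * ρ) ^ N := mul_le_mul_of_nonneg_left h4 hρ0.le
          _ ≤ _ := le_add_of_nonneg_right h6
      · rw [not_le] at hs
        have h4 := ih (k + 1) ℓ H hk hH hc
        have h5 : ES (1 - (1 - w) ^ N) univ (fun Z => miss d H (W ∪ Z)) ≤
            ES (1 - (1 - w) ^ N) univ (miss d H) :=
          ES_mono (hP0 N) (hP1 N) _ fun Z _ => miss_union_right d H W Z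
        have h6 : 1 ≤ 2 ^ ℓ * big W := by
          have h7 : (2 : ℝ) ^ ℓ * (1 / 2) ^ ℓ = 1 := by rw [← mul_pow]; norm_num
          rw [← h7]
          exact mul_le_mul_of_nonneg_left hs.le (by positivity)
        have h8 : 0 ≤ ρ * (2 * ρ) ^ N := by positivity
        calc ρ ^ (k + 1) * ES (1 - (1 - w) ^ N) univ (fun Z => miss d H (W ∪ Z))
            ≤ ρ ^ (k + 1) * ES (1 - (1 - w) ^ N) univ (miss d H) :=
              mul_le_mul_of_nonneg_left h5 (by positivity)
          _ ≤ (2 * ρ) ^ N * 1 := by rw [mul_one]; exact h4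
          _ ≤ (2 * ρ) ^ N * (2 ^ ℓ * big W) := mul_le_mul_of_nonneg_left h6 hpos.le
          _ = (2 ^ ℓ * (2 * ρ) ^ N) * big W := by ring
          _ ≤ _ := le_add_of_nonneg_left h8
    have h3 : ES w univ big ≤ ∑ t ∈ Ioc (ℓ / 2) ℓ, (ℓ.choose t : ℝ) * (p / w) ^ t := by
      rw [hbig, ES_sum]
      refine Finset.sum_le_sum fun t _ => ?_
      have hcm : ES w (univ : Finset X) (fun W =>
          (((frs H W).filter fun T => T.card = t).card : ℝ) * p ^ t) =
          ES w univ (fun W => p ^ t * (((frs H W).filter fun T => T.card = t).card : ℝ)) :=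
        ES_congr _ _ fun W _ => mul_comm _ _
      rw [hcm, ES_mul]
      calc p ^ t * ES w univ (fun W => (((frs H W).filter fun T => T.card = t).card : ℝ))
          ≤ p ^ t * ((ℓ.choose t : ℝ) * (1 / w) ^ t) :=
            mul_le_mul_of_nonneg_left (count_big hH hw0 hw1 t) (by positivity)
        _ = (ℓ.choose t : ℝ) * (p / w) ^ t := by
            rw [div_eq_mul_one_div p w, mul_pow]
            ring
    have h4 := err2 hr0 hr ℓ
    have h5 : ES w univ (fun W => ES (1 - (1 - w) ^ N) univ (fun Z => miss d H (W ∪ Z))) =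
        ES (1 - (1 - w) ^ (N + 1)) univ (miss d H) := by
      rw [ES_union]
      congr 1
      ring
    have h6 : 2 ^ ℓ * ES w univ big ≤ ρ := by
      have h7 : (1 / 2 : ℝ) ^ ℓ ≤ (1 / 2) ^ (d + 1) :=
        pow_le_pow_of_le_one (by norm_num) (by norm_num) (by omega)
      calc 2 ^ ℓ * ES w univ big ≤ 2 ^ ℓ * (1 / 8 * (1 / 4) ^ ℓ) :=
            mul_le_mul_of_nonneg_left (h3.trans h4) (by positivity)
        _ = 1 / 8 * (2 ^ ℓ * (1 / 4) ^ ℓ) := by ring
        _ = 1 / 8 * (1 / 2) ^ ℓ := by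
            rw [← mul_pow]
            norm_num
        _ ≤ ρ := by rw [hρ]; linarith
    calc ρ ^ (k + 1) * ES (1 - (1 - w) ^ (N + 1)) univ (miss d H)
        = ES w univ (fun W => ρ ^ (k + 1) *
            ES (1 - (1 - w) ^ N) univ (fun Z => miss d H (W ∪ Z))) := by
          rw [ES_mul, h5]
      _ ≤ ES w univ (fun W => ρ * (2 * ρ) ^ N + (2 ^ ℓ * (2 * ρ) ^ N) * big W) :=
          ES_mono hw0.le hw1 _ fun W _ => h2 W
      _ = ρ * (2 * ρ) ^ N + (2 * ρ) ^ N * (2 ^ ℓ * ES w univ big) := by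
          rw [ES_add, ES_const, ES_mul]
          ring
      _ ≤ ρ * (2 * ρ) ^ N + (2 * ρ) ^ N * ρ := by
          have := mul_le_mul_of_nonneg_left h6 hpos.le
          linarith
      _ = (2 * ρ) ^ (N + 1) := by ring

theorem geo_lt (d ℓ : ℕ) : ∑ j ∈ Ioc d ℓ, (1 / 2 : ℝ) ^ j < 1 := by
  have h1 : ∀ m : ℕ, ∑ j ∈ Ioc 0 m, (1 / 2 : ℝ) ^ j = 1 - (1 / 2) ^ m := by
    intro m
    induction m with
    | zero => simp
    | succ m ih =>
      rw [Finset.sum_Ioc_succ_top (Nat.zero_le m), ih, pow_succ]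
      ring
  have h2 : ∑ j ∈ Ioc d ℓ, (1 / 2 : ℝ) ^ j ≤ ∑ j ∈ Ioc 0 ℓ, (1 / 2 : ℝ) ^ j :=
    Finset.sum_le_sum_of_subset_of_nonneg (Finset.Ioc_subset_Ioc_left (Nat.zero_le d))
      fun _ _ _ => by positivity
  have h3 : (0 : ℝ) < (1 / 2) ^ ℓ := by positivity
  rw [h1] at h2
  linarith

/-- the number of rounds -/
theorem rounds (d ℓ : ℕ) {ε : ℝ} (hε0 : 0 < ε) (hε1 : ε ≤ 1) :
    ∃ N k : ℕ, 1 ≤ N ∧ ℓ < (d + 1) * 2 ^ k ∧
      (2 * (1 / 8 * (1 / 2 : ℝ) ^ (d + 1))) ^ N ≤ (1 / 8 * (1 / 2 : ℝ) ^ (d + 1)) ^ k * ε ∧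
      (N : ℝ) ≤ 9 * (Real.log (2 + ℓ / (d + 1)) + Real.log (1 / ε) / (d + 1)) := by
  have hd : (0 : ℝ) < d + 1 := by positivity
  have hlog2 : (0.6931471803 : ℝ) < Real.log 2 := Real.log_two_gt_d9
  set L := Real.log (2 + ℓ / (d + 1)) with hL
  set B := Real.log (1 / ε) / (d + 1) with hB
  have hq0 : (0 : ℝ) ≤ ℓ / (d + 1) := by positivity
  have hL2 : Real.log 2 ≤ L := Real.log_le_log (by norm_num) (by linarith)
  have hlε : 0 ≤ Real.log (1 / ε) := Real.log_nonneg (by rw [le_div_iff₀ hε0]; linarith)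
  have hB0 : 0 ≤ B := by positivity
  set m := ℓ / (d + 1) with hm
  set k := Nat.size m with hk
  set s := Nat.ceil (2 * B) with hs
  have hkL : (k : ℝ) ≤ 3 * L := by
    rcases Nat.eq_zero_or_pos m with h0 | h0
    · rw [hk, h0, Nat.size_zero]
      push_cast
      linarith
    · refine (size_le_log h0).trans ?_
      have h1 : (m : ℝ) ≤ ℓ / (d + 1) := by
        have := Nat.cast_div_le (α := ℝ) (m := ℓ) (n := d + 1)
        push_cast at this
        exact this
      have h2 : Real.log (m + 1) ≤ L := Real.log_le_log (by positivity) (by linarith)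
      linarith
  have hs1 : (s : ℝ) < 2 * B + 1 := Nat.ceil_lt_add_one (by positivity)
  have hs2 : 2 * B ≤ s := Nat.le_ceil _
  refine ⟨2 * k + s + 1, k, by omega, ?_, ?_, ?_⟩
  · have h1 : m < 2 ^ k := Nat.lt_size_self m
    rw [hm, Nat.div_lt_iff_lt_mul (by omega)] at h1
    rw [mul_comm]
    exact h1
  · set ρ : ℝ := 1 / 8 * (1 / 2 : ℝ) ^ (d + 1) with hρ
    have hρ0 : 0 < ρ := by positivity
    have hh : (1 / 2 : ℝ) ^ (d + 1) ≤ 1 := pow_le_one₀ (by norm_num) (by norm_num)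
    have h1 : (2 * ρ) ^ (2 * k) ≤ ρ ^ k := by
      rw [pow_mul]
      refine pow_le_pow_left₀ (by positivity) ?_ k
      have : ρ ≤ 1 / 8 := by linarith
      nlinarith
    have h2 : (2 * ρ) ^ (s + 1) ≤ ε := by
      have h3 : 2 * ρ ≤ (1 / 2) ^ (d + 1) := by
        have : (0 : ℝ) ≤ (1 / 2) ^ (d + 1) := by positivity
        linarith
      have h4 : (2 * ρ) ^ (s + 1) ≤ ((1 / 2 : ℝ) ^ (d + 1)) ^ s :=
        (pow_le_pow_left₀ (by positivity) h3 _).trans
          (pow_le_pow_of_le_one (by positivity) hh (Nat.le_succ s))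
      refine h4.trans ?_
      rw [← pow_mul, ← Real.log_le_log_iff (by positivity) hε0, Real.log_pow, one_div,
        Real.log_inv]
      have h5 : Real.log (1 / ε) = - Real.log ε := by rw [one_div, Real.log_inv]
      have h6 : B * (d + 1) = - Real.log ε := by
        rw [hB, div_mul_cancel₀ _ hd.ne', h5]
      push_cast
      have h7 : 2 * B * (d + 1) ≤ s * (d + 1) := mul_le_mul_of_nonneg_right hs2 hd.le
      have h8 : (0 : ℝ) ≤ s * (d + 1) := by positivity
      nlinarith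
    calc (2 * ρ) ^ (2 * k + s + 1) = (2 * ρ) ^ (2 * k) * (2 * ρ) ^ (s + 1) := by
          rw [← pow_add, add_assoc]
      _ ≤ ρ ^ k * ε := mul_le_mul h1 h2 (by positivity) (by positivity)
  · push_cast
    linarith

/-- **almost hitting the translates** -/
theorem almost_hit {G : Type*} [Group G] [Fintype G] [DecidableEq G] [MulAction G X]
    (H : Finset X) (q : ℝ) (hq0 : 0 < q)
    (hq : ∀ F ⊆ H, F.Nonempty → ((univ.filter fun g : G => g • F = F).card : ℝ) ≤
      Fintype.card G * q ^ F.card) (d : ℕ) {ε P : ℝ} (hε0 : 0 < ε) (hε1 : ε ≤ 1)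
    (hP : 576 * (2 ^ 59 * q) *
      (Real.log (2 + H.card / (d + 1)) + Real.log (1 / ε) / (d + 1)) ≤ P) (hP1 : P ≤ 1) :
    ES P univ (miss d (univ.image fun g : G => g • H)) ≤ ε := by
  classical
  obtain ⟨N, k, hN1, hk, hN2, hN3⟩ := rounds d H.card hε0 hε1
  set p : ℝ := 2 ^ 59 * q with hp
  have hp0 : 0 < p := by positivity
  have hNw : (N : ℝ) * (64 * p) ≤ P := by
    refine le_trans ?_ hP
    calc (N : ℝ) * (64 * p) ≤
        9 * (Real.log (2 + H.card / (d + 1)) + Real.log (1 / ε) / (d + 1)) * (64 * p) :=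
          mul_le_mul_of_nonneg_right hN3 (by positivity)
      _ = _ := by ring
  have hw1 : 64 * p ≤ 1 := by
    have h1 : (1 : ℝ) ≤ N := by exact_mod_cast hN1
    nlinarith
  set A : Finset (Finset X) := univ.image fun g : G => g • H with hA
  have hAc : ∀ S ∈ A, S.card ≤ H.card := by
    intro S hS
    obtain ⟨g, _, rfl⟩ := mem_image.1 hS
    rw [Finset.card_smul_finset]
  have hG0 : (0 : ℝ) < Fintype.card G := by exact_mod_cast Fintype.card_pos
  have hsp : ∀ F : Finset X, ((univ.filter fun g : G => F ⊆ g • H).card : ℝ) ≤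
      Fintype.card G * p ^ F.card := by
    intro F
    refine le_trans ?_ (Ctx.spread_const (G := G) H q hq0 hq F)
    have h3 : (univ.filter fun g : G => F ⊆ g • H).card ≤
        (univ.filter fun g : G => g • F ⊆ H).card := by
      refine Finset.card_le_card_of_injOn (fun g => g⁻¹) ?_ inv_injective.injOn
      intro g hg
      have hg' := (mem_filter.1 (mem_coe.1 hg)).2
      simp only [coe_filter, mem_univ, true_and, Set.mem_setOf_eq]
      have h4 := Finset.smul_finset_subset_smul_finset (a := g⁻¹) hg'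
      rwa [inv_smul_smul] at h4
    exact_mod_cast h3
  have hcost : 1 ≤ cost p A := by
    refine le_cost fun U hU => ?_
    have h1 : (Fintype.card G : ℝ) ≤
        ∑ F ∈ U, ((univ.filter fun g : G => F ⊆ g • H).card : ℝ) := by
      have h2 : (univ : Finset G).card ≤ ∑ F ∈ U, (univ.filter fun g : G => F ⊆ g • H).card := by
        refine le_trans (card_le_card
          (t := U.biUnion fun F => univ.filter fun g : G => F ⊆ g • H) ?_) card_biUnion_le
        intro g hg
        obtain ⟨F, hF, hFT⟩ := hU (g • H) (mem_image_of_mem _ hg)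
        exact mem_biUnion.2 ⟨F, hF, mem_filter.2 ⟨hg, hFT⟩⟩
      rw [Finset.card_univ] at h2
      exact_mod_cast h2
    have h2 : (Fintype.card G : ℝ) ≤ Fintype.card G * ∑ F ∈ U, p ^ F.card := by
      rw [Finset.mul_sum]
      exact h1.trans (Finset.sum_le_sum fun F _ => hsp F)
    by_contra hcon
    nlinarith [not_le.1 hcon]
  have hit := iterB hp0 le_rfl hw1 d N k H.card A hk hAc ((geo_lt d H.card).trans_le hcost)
  have h1 : ES (1 - (1 - 64 * p) ^ N) univ (miss d A) ≤ ε :=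
    le_of_mul_le_mul_left (hit.trans hN2) (by positivity)
  have hP0 : 0 ≤ 1 - (1 - 64 * p) ^ N := by
    have : (1 - 64 * p) ^ N ≤ 1 := pow_le_one₀ (by linarith) (by linarith)
    linarith
  have hPP : 1 - (1 - 64 * p) ^ N ≤ P := by
    have h1 := one_add_mul_le_pow (a := -(64 * p)) (by linarith) N
    have h2 : (1 + -(64 * p)) ^ N = (1 - 64 * p) ^ N := by ring_nf
    rw [h2] at h1
    linarith
  have hmono := ES_mono_p hP0 hPP hP1 (univ : Finset X) (f := fun W => (-1) * miss d A W)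
    (fun W Z => by
      have := miss_union_left d A W Z
      linarith)
  rw [ES_mul, ES_mul] at hmono
  linarith

theorem ES_one_sub (P : ℝ) (f : Finset X → ℝ) :
    ES P univ (fun W => 1 - f W) = 1 - ES P univ f := by
  have e : (fun W => 1 - f W) = fun W => 1 + (-1) * f W := by
    funext W
    ring
  rw [e, ES_add, ES_const, ES_mul]
  ring

/-- **group actions** -/
theorem act_almost (G : Type*) [Group G] [Fintype G] [MulAction G X] {H : Finset X}
    (hH : H.Nonempty) (d : ℕ) {ε P : ℝ} (hε0 : 0 < ε) (hε1 : ε ≤ 1)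
    (hP : 576 * 2 ^ 60 * Act.expThr G H *
      (Real.log (2 + H.card / (d + 1)) + Real.log (1 / ε) / (d + 1)) ≤ P) (hP1 : P ≤ 1) :
    1 - ε ≤ probAlmostTranslate G d H P := by
  classical
  have hpos := Act.expThr_pos G hH
  have h := almost_hit (G := G) H (2 * Act.expThr G H) (by positivity)
    (fun F hF hne => Act.stab_le G hH F hF hne) d hε0 hε1 (P := P)
    (le_trans (le_of_eq (by ring)) hP) hP1
  have h2 : probAlmostTranslate G d H P =
      ES P univ (fun W => 1 - miss d (univ.image fun g : G => g • H) W) := by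
    unfold probAlmostTranslate ES
    rw [Finset.powerset_univ]
    apply Finset.sum_congr rfl
    intro W _
    rw [Act.weight_eq]
    beta_reduce
    unfold miss
    by_cases a : ∃ g : G, (g • H \ W).card ≤ d
    · have b : ∃ S ∈ (univ.image fun g : G => g • H), (S \ W).card ≤ d := by
        obtain ⟨g, hg⟩ := a
        exact ⟨_, mem_image_of_mem _ (mem_univ g), hg⟩
      rw [if_pos a, if_pos b]
      ring
    · have b : ¬ ∃ S ∈ (univ.image fun g : G => g • H), (S \ W).card ≤ d := by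
        rintro ⟨S, hS, hSW⟩
        obtain ⟨g, _, rfl⟩ := mem_image.1 hS
        exact a ⟨g, hSW⟩
      rw [if_neg a, if_neg b]
      ring
  rw [h2, ES_one_sub]
  linarith

end Vale.Agent.N064
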