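import Vale.Agent.N064.Iter

/-!
P064 (helper5): almost copies in `G(n,p)`: the upper bound, and the lower bound for matchings.
-/

set_option linter.all false

namespace Vale.Agent.N064

open SimpleGraph MeasureTheory Finset Vale.Agent.P064 Vale.Agent.P064.Multi Vale.Agent.P064.H825
open scoped Pointwise

variable {n : ℕ}

theorem ncard_sdiff (K : SimpleGraph (Fin n)) (Z : Finset (Pair n)) :
    (K.edgeSet \ (toG Z).edgeSet).ncard = (ofG K \ Z).card := by
  rw [← ncard_toG]
  congr 1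
  ext e
  constructor
  · rintro ⟨h1, h2⟩
    have hd : ¬ e.IsDiag := K.not_isDiag_of_mem_edgeSet h1
    refine (toG_edge _ ⟨e, hd⟩).2 (mem_sdiff.2 ⟨(mem_ofG K ⟨e, hd⟩).2 h1, fun h => h2 ?_⟩)
    exact (toG_edge Z ⟨e, hd⟩).2 h
  · intro h
    have hd : ¬ e.IsDiag := (toG _).not_isDiag_of_mem_edgeSet h
    have h1 := mem_sdiff.1 ((toG_edge _ ⟨e, hd⟩).1 h)
    exact ⟨(mem_ofG K ⟨e, hd⟩).1 h1.1, fun h2 => h1.2 ((toG_edge Z ⟨e, hd⟩).1 h2)⟩

theorem probAlmost_eq {W : Type*} [Finite W] (H : SimpleGraph W) (j : W ↪ Fin n) (d : ℕ)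
    (p : unitInterval) :
    probAlmost n d H p = 1 - ES (p : ℝ) univ
      (miss d (univ.image fun g : Equiv.Perm (Fin n) => g • img H j)) := by
  classical
  have h := integral_eq_ES (n := n) p
    (fun G => if ∃ K ∈ copies n H, (K.edgeSet \ G.edgeSet).ncard ≤ d then (1 : ℝ) else 0)
  have h2 : probAlmost n d H p = ∫ G,
      (fun G => if ∃ K ∈ copies n H, (K.edgeSet \ G.edgeSet).ncard ≤ d then (1 : ℝ) else 0) G
      ∂(binomialRandom (Fin n) p) := by
    unfold probAlmost
    have hm : MeasurableSet {G : SimpleGraph (Fin n) |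
        ∃ K ∈ copies n H, (K.edgeSet \ G.edgeSet).ncard ≤ d} :=
      Set.Finite.measurableSet (Set.toFinite _)
    rw [← MeasureTheory.integral_indicator_one hm]
    apply integral_congr_ae
    filter_upwards with G
    simp [Set.indicator_apply]
  rw [h2, h, ← ES_one_sub]
  refine ES_congr _ _ fun Z _ => ?_
  unfold miss
  by_cases a : ∃ K ∈ copies n H, (K.edgeSet \ (toG Z).edgeSet).ncard ≤ d
  · have b : ∃ S ∈ (univ.image fun g : Equiv.Perm (Fin n) => g • img H j), (S \ Z).card ≤ d := by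
      obtain ⟨K, hK, hKd⟩ := a
      obtain ⟨g, rfl⟩ := (mem_copies_iff H j K).1 hK
      rw [ncard_sdiff, ofG_toG] at hKd
      exact ⟨_, mem_image_of_mem _ (mem_univ g), hKd⟩
    rw [if_pos a, if_pos b]
    ring
  · have b : ¬ ∃ S ∈ (univ.image fun g : Equiv.Perm (Fin n) => g • img H j),
        (S \ Z).card ≤ d := by
      rintro ⟨S, hS, hSZ⟩
      obtain ⟨g, _, rfl⟩ := mem_image.1 hS
      refine a ⟨_, (mem_copies_iff H j _).2 ⟨g, rfl⟩, ?_⟩
      rw [ncard_sdiff, ofG_toG]
      exact hSZ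
    rw [if_neg a, if_neg b]
    ring

/-- **almost copies** -/
theorem graph_almost {W : Type*} [Fintype W] {H : SimpleGraph W} (hH : H ≠ ⊥) (j : W ↪ Fin n)
    (d : ℕ) {ε : ℝ} (hε0 : 0 < ε) (hε1 : ε ≤ 1) (P : unitInterval)
    (hP : 576 * 2 ^ 60 * pE n H *
      (Real.log (2 + H.edgeSet.ncard / (d + 1)) + Real.log (1 / ε) / (d + 1)) ≤ P) :
    1 - ε ≤ probAlmost n d H P := by
  classical
  have hpos := Act.pE_pos' hH j
  have h := almost_hit (G := Equiv.Perm (Fin n)) (img H j) (2 * pE n H) (by positivity)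
    (fun F hF hne => stab_pE j F hF hne) d hε0 hε1 (P := P)
    (by rw [card_img]; exact le_trans (le_of_eq (by ring)) hP) P.2.2
  rw [probAlmost_eq H j]
  linarith

theorem probAlmost_zero {W : Type*} [Fintype W] (H : SimpleGraph W) (p : unitInterval) :
    probAlmost n 0 H p = probCopy n H p := by
  unfold probAlmost probCopy
  congr 1
  ext G
  simp only [Set.mem_setOf_eq, Nat.le_zero]
  rw [copyCount_pos]
  constructor
  · rintro ⟨K, ⟨f, rfl⟩, hK⟩
    rw [Set.ncard_eq_zero (Set.toFinite _), Set.diff_eq_empty] at hK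
    have h1 : H.map f ≤ G := edgeSet_subset_edgeSet.1 hK
    exact ⟨⟨⟨f, fun {a b} h => h1 ((SimpleGraph.map_adj f H _ _).2 ⟨a, b, h, rfl, rfl⟩)⟩,
      f.injective⟩⟩
  · rintro ⟨c⟩
    refine ⟨H.map c.toEmbedding, ⟨c.toEmbedding, rfl⟩, ?_⟩
    rw [Set.ncard_eq_zero (Set.toFinite _), Set.diff_eq_empty]
    refine edgeSet_subset_edgeSet.2 ?_
    rw [SimpleGraph.map_le_iff_le_comap]
    intro a b hab
    exact c.toHom.map_adj hab

/-! ### matchings -/

theorem card_nmat (n : ℕ) : (nmat n).edgeSet.ncard = n / 2 := by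
  classical
  rw [← card_img (nmat n) (Function.Embedding.refl _)]
  have h1 : img (nmat n) (Function.Embedding.refl _) =
      univ.image (fun x : Fin (n / 2) => mkPair (lo x) (hi x) (lo_ne_hi x)) := by
    ext e
    rw [mem_image]
    constructor
    · intro he
      obtain ⟨x, rfl⟩ := mem_img_nmat e he
      exact ⟨x, mem_univ _, rfl⟩
    · rintro ⟨x, _, rfl⟩
      rw [mem_img]
      refine ⟨lo x, hi x, ?_, rfl⟩
      rw [nmat_adj]
      refine ⟨lo_ne_hi x, ?_⟩
      simp only [lo, hi]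
      omega
  rw [h1, Finset.card_image_of_injective, Finset.card_univ, Fintype.card_fin]
  intro x y hxy
  have h2 : s((lo x : Fin n), hi x) = s(lo y, hi y) := congrArg Subtype.val hxy
  rw [Sym2.eq_iff] at h2
  apply Fin.ext
  rcases h2 with ⟨h, _⟩ | ⟨h, _⟩
  · have := congrArg Fin.val h
    simp only [lo] at this
    omega
  · have := congrArg Fin.val h
    simp only [lo, hi] at this
    omega

theorem iso_le_d (d : ℕ) (Z : Finset (Pair n)) (g : Equiv.Perm (Fin n))
    (h : (g • img (nmat n) (Function.Embedding.refl _) \ Z).card ≤ d) :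
    iso Z ≤ 2 * d + 1 := by
  classical
  set M := g • img (nmat n) (Function.Embedding.refl _) \ Z with hM
  unfold iso
  rw [← Finset.sum_filter, Finset.sum_const, nsmul_eq_mul, mul_one]
  have hsub : univ.filter (fun v : Fin n => Disjoint (star v) Z) ⊆
      M.biUnion (fun e => univ.filter fun v : Fin n => v ∈ e.1) ∪
        univ.filter (fun v : Fin n => (g.symm v).val + 1 = n) := by
    intro v hv
    have hv' := (mem_filter.1 hv).2
    obtain ⟨w, rfl⟩ := g.surjective v
    by_cases hw : w.val + 1 = n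
    · refine mem_union_right _ (mem_filter.2 ⟨mem_univ _, ?_⟩)
      rw [Equiv.symm_apply_apply]
      exact hw
    refine mem_union_left _ ?_
    have hex : ∃ w', (nmat n).Adj w w' := by
      have hw2 := w.2
      rcases Nat.even_or_odd' w.val with ⟨c, hc | hc⟩
      · refine ⟨⟨w.val + 1, by omega⟩, ?_⟩
        rw [nmat_adj]
        refine ⟨fun e => ?_, ?_⟩
        · have := congrArg Fin.val e
          simp at this
        · simp only
          omega
      · refine ⟨⟨w.val - 1, by omega⟩, ?_⟩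
        rw [nmat_adj]
        refine ⟨fun e => ?_, ?_⟩
        · have := congrArg Fin.val e
          simp only at this
          omega
        · simp only
          omega
    obtain ⟨w', hw'⟩ := hex
    have hne : g w ≠ g w' := fun e => hw'.ne (g.injective e)
    refine mem_biUnion.2 ⟨mkPair (g w) (g w') hne, ?_, mem_filter.2 ⟨mem_univ _,
      Sym2.mem_mk_left _ _⟩⟩
    rw [hM, mem_sdiff, smul_img, mem_img]
    refine ⟨⟨w, w', hw', rfl⟩, fun hZ => ?_⟩
    exact Finset.disjoint_left.1 hv' ((mem_star _ _).2 (Sym2.mem_mk_left _ _)) hZ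
  have h1 : (M.biUnion (fun e => univ.filter fun v : Fin n => v ∈ e.1)).card ≤ M.card * 2 := by
    refine Finset.card_biUnion_le_card_mul _ _ _ fun e _ => ?_
    obtain ⟨e, he⟩ := e
    induction e with
    | _ a b =>
      have : (univ.filter fun v : Fin n => v ∈ s(a, b)) ⊆ {a, b} := by
        intro v hv
        have := (mem_filter.1 hv).2
        rw [Sym2.mem_iff] at this
        rw [mem_insert, mem_singleton]
        exact this
      exact (card_le_card this).trans Finset.card_le_two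
  have h2 : (univ.filter (fun v : Fin n => (g.symm v).val + 1 = n)).card ≤ 1 := by
    rw [Finset.card_le_one]
    intro u hu v hv
    have h3 := (mem_filter.1 hu).2
    have h4 := (mem_filter.1 hv).2
    exact g.symm.injective (Fin.ext (by omega))
  have h3 := (card_le_card hsub).trans (card_union_le _ _)
  have h4 : (univ.filter (fun v : Fin n => Disjoint (star v) Z)).card ≤ 2 * d + 1 := by omega
  exact_mod_cast h4

open Classical in
/-- an almost perfect matching leaves few isolated vertices -/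
theorem prob_le_iso (d : ℕ) (p : unitInterval) :
    probAlmost n d (nmat n) p ≤
      ES (p : ℝ) univ (fun Z : Finset (Pair n) => if iso Z ≤ 2 * d + 1 then (1 : ℝ) else 0) := by
  rw [probAlmost_eq (nmat n) (Function.Embedding.refl _), ← ES_one_sub]
  refine ES_mono p.2.1 p.2.2 _ fun Z _ => ?_
  unfold miss
  split_ifs with a b b
  · norm_num
  · exfalso
    obtain ⟨S, hS, hSZ⟩ := a
    obtain ⟨g, _, rfl⟩ := mem_image.1 hS
    exact b (iso_le_d d Z g hSZ)
  · norm_num
  · norm_num

theorem exp_le_one_sub {p : ℝ} (h0 : 0 ≤ p) (h1 : p ≤ 1 / 2) : Real.exp (-(2 * p)) ≤ 1 - p := by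
  have h1 := Real.add_one_le_exp (2 * p)
  have h2 : 0 < 1 + 2 * p := by linarith
  have h3 : Real.exp (-(2 * p)) ≤ 1 / (1 + 2 * p) := by
    rw [Real.exp_neg, ← one_div]
    apply one_div_le_one_div_of_le h2
    linarith
  refine h3.trans ?_
  rw [div_le_iff₀ h2]
  nlinarith

/-- first moment: many vertices must be covered -/
theorem low1 {d : ℕ} (hn : 2 ≤ n) (hd : 4 * d < n) (p : unitInterval)
    (hp : 1 / 2 ≤ probAlmost n d (nmat n) p) : 1 / (8 * n) ≤ (p : ℝ) := by
  classical
  have h0 := p.2.1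
  have h1 := p.2.2
  have hn0 : (2 : ℝ) ≤ n := by exact_mod_cast hn
  have hd0 : 4 * (d : ℝ) + 1 ≤ n := by exact_mod_cast hd
  have hiso : ∀ Z : Finset (Pair n), iso Z ≤ n := by
    intro Z
    unfold iso
    calc ∑ v : Fin n, (if Disjoint (star v) Z then (1 : ℝ) else 0) ≤ ∑ v : Fin n, (1 : ℝ) :=
          Finset.sum_le_sum fun v _ => by split_ifs <;> norm_num
      _ = n := by simp
  have h2 : ES (p : ℝ) univ (fun Z : Finset (Pair n) =>
      (n / 4 : ℝ) * (if iso Z ≤ 2 * d + 1 then (1 : ℝ) else 0)) ≤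
      ES (p : ℝ) univ (fun Z : Finset (Pair n) => n + (-1) * iso Z) := by
    refine ES_mono h0 h1 _ fun Z _ => ?_
    have := hiso Z
    split_ifs with a
    · linarith
    · linarith
  rw [ES_mul, ES_add, ES_const, ES_mul, ES_iso] at h2
  have h3 := one_add_mul_le_pow (a := -(p : ℝ)) (by linarith) (n - 1)
  have h4 : (1 + -(p : ℝ)) ^ (n - 1) = (1 - p) ^ (n - 1) := by ring_nf
  rw [h4] at h3
  have h5 : ((n - 1 : ℕ) : ℝ) ≤ n := by exact_mod_cast Nat.sub_le n 1
  have h6 := hp.trans (prob_le_iso d p)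
  have h7 : (n / 4 : ℝ) * (1 / 2) ≤ n + -1 * (n * (1 - (p : ℝ)) ^ (n - 1)) :=
    (mul_le_mul_of_nonneg_left h6 (by positivity)).trans h2
  have h8 : 1 - n * (p : ℝ) ≤ (1 - (p : ℝ)) ^ (n - 1) := by nlinarith
  have h9 : (n : ℝ) * (1 - n * (p : ℝ)) ≤ n * (1 - (p : ℝ)) ^ (n - 1) :=
    mul_le_mul_of_nonneg_left h8 (by positivity)
  rw [div_le_iff₀ (by positivity)]
  nlinarith

/-- second moment: isolated vertices -/
theorem low2 {d : ℕ} (hd : 400 * (d + 1) ≤ n) (p : unitInterval)
    (hp : 1 / 2 ≤ probAlmost n d (nmat n) p) : Real.log (n / (d + 1)) / (4 * n) ≤ (p : ℝ) := by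
  classical
  by_contra hcon
  push Not at hcon
  have hd1 : (1 : ℝ) ≤ d + 1 := by
    have : (0 : ℝ) ≤ d := Nat.cast_nonneg d
    linarith
  have hdn : 400 * ((d : ℝ) + 1) ≤ n := by exact_mod_cast hd
  have hn0 : (0 : ℝ) < n := by linarith
  have hp0 : (0 : ℝ) ≤ p := p.2.1
  have hp1 : (p : ℝ) ≤ 1 := p.2.2
  set x : ℝ := n / (d + 1) with hx
  have hxn : x * (d + 1) = n := by rw [hx]; field_simp
  have hx400 : 400 ≤ x := by
    rw [hx, le_div_iff₀ (by linarith)]
    exact hdn
  have hxle : x ≤ n := by nlinarith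
  set s := Real.sqrt x with hs
  have hs2 : s * s = x := Real.mul_self_sqrt (by linarith)
  have hs20 : 20 ≤ s := by
    rw [hs]
    apply Real.le_sqrt_of_sq_le
    linarith
  have hlogs : Real.log x = 2 * Real.log s := by
    rw [← hs2, Real.log_mul (by linarith) (by linarith)]
    ring
  have hlog : Real.log x ≤ 2 * s := by
    have h2 := Real.log_le_sub_one_of_pos (by linarith : 0 < s)
    linarith
  have hp20 : (p : ℝ) ≤ 1 / 20 := by
    have h1 : Real.log x / (4 * n) ≤ 1 / 20 := by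
      rw [div_le_div_iff₀ (by positivity) (by norm_num)]
      nlinarith
    linarith
  set μ : ℝ := n * (1 - (p : ℝ)) ^ (n - 1) with hμ
  have hexp := exp_le_one_sub hp0 (by linarith)
  have hμs : s * (d + 1) ≤ μ := by
    have h1 : Real.exp (-(2 * (p : ℝ))) ^ n ≤ (1 - (p : ℝ)) ^ (n - 1) := by
      calc Real.exp (-(2 * (p : ℝ))) ^ n ≤ (1 - (p : ℝ)) ^ n :=
            pow_le_pow_left₀ (Real.exp_pos _).le hexp n
        _ ≤ (1 - (p : ℝ)) ^ (n - 1) :=
            pow_le_pow_of_le_one (by linarith) (by linarith) (Nat.sub_le _ _)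
    have h2 : Real.exp (-(2 * (p : ℝ))) ^ n = Real.exp (-(2 * p * n)) := by
      rw [← Real.exp_nat_mul]
      congr 1
      ring
    have h3 : s⁻¹ ≤ Real.exp (-(2 * p * n)) := by
      have h4 : s⁻¹ = Real.exp (-(Real.log x / 2)) := by
        rw [Real.exp_neg, hlogs, show 2 * Real.log s / 2 = Real.log s by ring,
          Real.exp_log (by linarith)]
      rw [h4]
      apply Real.exp_le_exp.2
      have h5 : (p : ℝ) * (4 * n) < Real.log x := by
        rwa [lt_div_iff₀ (by positivity)] at hcon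
      linarith
    rw [h2] at h1
    have h6 : s⁻¹ ≤ (1 - (p : ℝ)) ^ (n - 1) := h3.trans h1
    rw [hμ]
    have hs0 : s ≠ 0 := by linarith
    calc s * (d + 1) = (s * s * (d + 1)) * s⁻¹ := by field_simp
      _ = n * s⁻¹ := by rw [hs2, hxn]
      _ ≤ _ := mul_le_mul_of_nonneg_left h6 hn0.le
  have hμt : 10 * (2 * (d : ℝ) + 1) ≤ μ := by nlinarith
  have hd0 : (0 : ℝ) ≤ d := Nat.cast_nonneg d
  have h10 : 10 ≤ μ := by linarith
  have h2 : ES (p : ℝ) univ (fun Z : Finset (Pair n) => (9 / 10 * μ) ^ 2 *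
      (if iso Z ≤ 2 * d + 1 then (1 : ℝ) else 0)) ≤
      ES (p : ℝ) univ (fun Z : Finset (Pair n) =>
        (iso Z * iso Z + (-(2 * μ)) * iso Z) + μ ^ 2) := by
    apply ES_mono hp0 hp1
    intro Z _
    have hnn : 0 ≤ (iso Z - μ) ^ 2 := sq_nonneg _
    split_ifs with h
    · have h3 : 9 / 10 * μ ≤ μ - iso Z := by linarith
      have h4 := pow_le_pow_left₀ (by linarith) h3 2
      nlinarith
    · nlinarith
  rw [ES_mul, ES_add, ES_add, ES_mul, ES_const, ES_iso] at h2
  have h3 := ES_iso_sq (n := n) hp0 hp1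
  have hn400 : 400 ≤ n := by omega
  have hsec : (n : ℝ) * n * (1 - (p : ℝ)) ^ (2 * n - 3) * (1 - p) = μ ^ 2 := by
    rw [hμ, mul_assoc, ← pow_succ, show 2 * n - 3 + 1 = (n - 1) * 2 by omega, pow_mul]
    ring
  set B : ℝ := (n : ℝ) * n * (1 - (p : ℝ)) ^ (2 * n - 3) with hB
  have hB0 : 0 ≤ B := by
    have : 0 ≤ 1 - (p : ℝ) := by linarith
    positivity
  have hB1 : B * (19 / 20) ≤ μ ^ 2 := by
    rw [← hsec]
    apply mul_le_mul_of_nonneg_left _ hB0
    linarith
  have h6 := hp.trans (prob_le_iso d p)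
  have h7 := mul_le_mul_of_nonneg_left h6 (sq_nonneg (9 / 10 * μ))
  rw [← hμ] at h2 h3
  nlinarith

/-- a fixed set of isolated vertices -/
theorem low3 {d : ℕ} (hd : 2 * d + 2 ≤ n) (p : unitInterval) (hp2 : (p : ℝ) ≤ 1 / 2) {ε : ℝ}
    (hε : 0 < ε) (hp : 1 - ε ≤ probAlmost n d (nmat n) p) :
    Real.log (1 / ε) / (d + 1) / (4 * n) ≤ (p : ℝ) := by
  classical
  have h0 := p.2.1
  have h1 := p.2.2
  obtain ⟨U, _, hU⟩ := Finset.exists_subset_card_eq (s := (univ : Finset (Fin n)))
    (n := 2 * d + 2) (by rwa [Finset.card_univ, Fintype.card_fin])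
  set T : Finset (Pair n) := U.biUnion star with hT
  have hTc : T.card ≤ (2 * d + 2) * n := by
    rw [← hU]
    refine Finset.card_biUnion_le_card_mul _ _ _ fun v _ => ?_
    rw [card_star]
    exact Nat.sub_le n 1
  have h2 : ES (p : ℝ) univ (fun Z : Finset (Pair n) =>
      if iso Z ≤ 2 * d + 1 then (1 : ℝ) else 0) ≤
      ES (p : ℝ) univ (fun Z : Finset (Pair n) => 1 - if Disjoint T Z then (1 : ℝ) else 0) := by
    refine ES_mono h0 h1 _ fun Z _ => ?_
    split_ifs with a b b
    · exfalso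
      have h3 : (2 * d + 2 : ℝ) ≤ iso Z := by
        unfold iso
        calc (2 * d + 2 : ℝ) = ∑ v ∈ U, (1 : ℝ) := by
              rw [Finset.sum_const, hU, nsmul_eq_mul]
              push_cast
              ring
          _ = ∑ v ∈ U, (if Disjoint (star v) Z then (1 : ℝ) else 0) := by
              refine Finset.sum_congr rfl fun v hv => ?_
              rw [if_pos (Finset.disjoint_of_subset_left (Finset.subset_biUnion_of_mem star hv) b)]
          _ ≤ _ := Finset.sum_le_sum_of_subset_of_nonneg (subset_univ _) fun v _ _ => by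
              split_ifs <;> norm_num
      linarith
    · norm_num
    · norm_num
    · norm_num
  rw [ES_one_sub, ES_miss _ _ _ (subset_univ _)] at h2
  have h3 : (1 - (p : ℝ)) ^ T.card ≤ ε := by
    have := (hp.trans (prob_le_iso d p)).trans h2
    linarith
  have h4 : Real.exp (-(2 * (p : ℝ))) ^ ((2 * d + 2) * n) ≤ ε := by
    calc Real.exp (-(2 * (p : ℝ))) ^ ((2 * d + 2) * n) ≤ (1 - (p : ℝ)) ^ ((2 * d + 2) * n) :=
          pow_le_pow_left₀ (Real.exp_pos _).le (exp_le_one_sub h0 hp2) _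
      _ ≤ (1 - (p : ℝ)) ^ T.card := pow_le_pow_of_le_one (by linarith) (by linarith) hTc
      _ ≤ ε := h3
  rw [← Real.exp_nat_mul, ← Real.le_log_iff_exp_le hε] at h4
  push_cast at h4
  have hn0 : (0 : ℝ) < n := by exact_mod_cast (by omega : 0 < n)
  rw [div_div, div_le_iff₀ (by positivity), one_div, Real.log_inv]
  nlinarith

/-- **the lower bound** -/
theorem low {d : ℕ} (hn : 2 ≤ n) (hd : 4 * d < n) {ε : ℝ} (hε : 0 < ε) (hε1 : ε ≤ 1 / 2)
    (p : unitInterval) (hp2 : (p : ℝ) ≤ 1 / 2) (hp : 1 - ε ≤ probAlmost n d (nmat n) p) :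
    1 / 864 * pE n (nmat n) * (Real.log (2 + (nmat n).edgeSet.ncard / (d + 1)) +
      Real.log (1 / ε) / (d + 1)) ≤ p := by
  have hn0 : (0 : ℝ) < n := by exact_mod_cast (by omega : 0 < n)
  have hd1 : (0 : ℝ) < d + 1 := by positivity
  have hE0 := pE_nonneg (n := n) (nmat n)
  have hE : pE n (nmat n) ≤ 9 / n := by
    by_cases h9 : 9 ≤ n
    · exact pE_nmat_le h9
    · obtain ⟨⟨q, hq, _⟩, _⟩ := pE_isLeast (nmat n) (Function.Embedding.refl _)
      rw [← hq]
      refine q.2.2.trans ?_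
      rw [le_div_iff₀ hn0]
      have : (n : ℝ) ≤ 9 := by exact_mod_cast (by omega : n ≤ 9)
      linarith
  have hhalf : 1 / 2 ≤ probAlmost n d (nmat n) p := by linarith
  set L := Real.log (2 + (nmat n).edgeSet.ncard / (d + 1)) with hL
  set B := Real.log (1 / ε) / (d + 1) with hB
  have hB0 : 0 ≤ B := by
    have : 0 ≤ Real.log (1 / ε) := Real.log_nonneg (by rw [le_div_iff₀ hε]; linarith)
    positivity
  have hq : (((nmat n).edgeSet.ncard : ℕ) : ℝ) / (d + 1) ≤ n / (d + 1) / 2 := by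
    rw [card_nmat, div_div, mul_comm, ← div_div]
    refine div_le_div_of_nonneg_right ?_ hd1.le
    have := Nat.cast_div_le (α := ℝ) (m := n) (n := 2)
    push_cast at this
    exact this
  have hq0 : (0 : ℝ) ≤ (((nmat n).edgeSet.ncard : ℕ) : ℝ) / (d + 1) := by positivity
  have hL0 : 0 ≤ L := Real.log_nonneg (by linarith)
  have h3 := low3 (by omega) p hp2 hε hp
  rw [← hB, div_le_iff₀ (by positivity)] at h3
  have h1 : L ≤ 48 * (p * n) := by
    by_cases h400 : 400 * (d + 1) ≤ n
    · have h2 := low2 h400 p hhalf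
      rw [div_le_iff₀ (by positivity)] at h2
      have hx : (400 : ℝ) ≤ n / (d + 1) := by
        rw [le_div_iff₀ hd1]
        exact_mod_cast h400
      have h4 : L ≤ Real.log (n / (d + 1)) := Real.log_le_log (by linarith) (by linarith)
      have h5 : 0 ≤ (p : ℝ) * n := mul_nonneg p.2.1 hn0.le
      linarith
    · have h2 := low1 hn hd p hhalf
      rw [div_le_iff₀ (by positivity)] at h2
      have hx : (n : ℝ) / (d + 1) ≤ 400 := by
        rw [div_le_iff₀ hd1]
        exact_mod_cast (by omega : n ≤ 400 * (d + 1))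
      have h4 : L ≤ Real.log (2 ^ 8) := Real.log_le_log (by linarith) (by linarith)
      rw [Real.log_pow] at h4
      have := Real.log_two_lt_d9
      push_cast at h4
      linarith
  have h5 : pE n (nmat n) * (L + B) ≤ 9 / n * (52 * (p * n)) :=
    mul_le_mul hE (by linarith) (by linarith) (by positivity)
  have h6 : 9 / (n : ℝ) * (52 * (p * n)) = 468 * p := by
    field_simp
    ring
  have h7 : (0 : ℝ) ≤ p := p.2.1
  rw [h6] at h5
  nlinarith

end Vale.Agent.N064
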